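import Vale.Agent.P181.H382.H112.Defs

set_option autoImplicit false

/-!
# P181, LS without `δ`: the literals

`TwoLongSU` is `TwoLongS` with `δ = (b - a) / b` free; `RhoU` is the union.
-/

namespace Vale.Agent.P181.H382.U

open Vale.Agent.P181.H280 (plethMult)
open Vale.Agent.P181.TL (dn2)
open Vale.Agent.P181.PL (dn)

/-- **(U1)** the numbers, from `CoreS` (two long rows, arbitrary tail, every `b > a`). -/
def TwoLongSU : Prop := ∃ (C : ℝ) (c : ℕ), 1 ≤ C ∧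
  ∀ (a b k : ℕ) (lam : Fin (k + 3) → ℕ) (Λ : ℝ), Antitone lam → ∑ i, lam i = a * b → a < b →
  1 ≤ Λ → C * Λ ^ c ≤ a → (b : ℝ) ≤ Λ * a → (b : ℝ) ≤ Λ * ((b : ℝ) - a) →
  (a : ℝ) ^ 2 ≤ Λ * lam 1 → C * Λ ^ c * dn2 lam ≤ (a : ℝ) ^ 2 →
  C * b * Real.log (2 * b / ((b : ℝ) - a)) ≤
    ((b : ℝ) - a) * Real.log ((lam 1 : ℝ) * dn2 lam / (b : ℝ) ^ 3) →
  plethMult a b (k + 3) lam ≤ plethMult b a (k + 3) lam

/-- **(U2)** the union, from `TwoLongSU`, `NearU` (for `D_2 ≥ a ^ 2 / P`), `UniAll` (`P w ≤ b ^ 2`)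
and `PolyS` (`b ≥ a P`). -/
def RhoU : Prop := ∃ C : ℝ, 0 < C ∧ ∀ a b : ℕ, a < b → ∀ (n : ℕ) (lam : Fin n → ℕ),
  C * b * Real.log (2 * b / ((b : ℝ) - a)) ≤
    ((b : ℝ) - a) * Real.log ((dn lam 1 : ℝ) * dn lam 2 / (b : ℝ) ^ 3) →
  plethMult a b n lam ≤ plethMult b a n lam

end Vale.Agent.P181.H382.U
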